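import Mathlib
import Vale.Agent.P100.Compare

/-!
# P100: lower bounds that come from one value

If `u(b) ≥ c` and both components are bounded on the unit ball around `b`, then the means of `u` and
of `v` at a small radius around `b` are bounded below, and so is `v` on every fixed ball.
-/

namespace Vale.Agent.P100.Local

open MeasureTheory Set Filter Topology Finset Function
open Vale.Agent.P098.Cone
open scoped ContDiff

noncomputable section

variable {n : ℕ} {p q : ℝ} {u v : (Fin n → ℝ) → ℝ}

theorem affine_le_rpow {x s η C : ℝ} (hx : 0 < x) (hxC : x ≤ C) (hs : 0 < s) (hη : 0 < η) :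
    η ^ s / C * (x - η) ≤ x ^ s := by
  have hC : 0 < C := hx.trans_le hxC
  rcases le_total x η with h | h
  · refine le_trans ?_ (Real.rpow_nonneg hx.le s)
    exact mul_nonpos_of_nonneg_of_nonpos (by positivity) (by linarith)
  · refine le_trans ?_ (Real.rpow_le_rpow hη.le h hs.le)
    rw [div_mul_eq_mul_div, div_le_iff₀ hC]
    exact mul_le_mul_of_nonneg_left (by linarith) (Real.rpow_nonneg hη.le s)

theorem integral_bump_at (b : Fin n → ℝ) {R : ℝ} (hR : 0 < R) :
    ∫ x, bump b R x = R ^ (n + 6) * mass n 3 := by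
  have h := integral_scaled (bump b R) b hR
  have e : ∀ y : Fin n → ℝ, bump b R (b + R • y) = R ^ 6 * posPow 3 (1 - sqr y) := by
    intro y
    simp only [bump, add_sub_cancel_left, sqr_smul, posPow]
    rw [show R ^ 2 - R ^ 2 * sqr y = R ^ 2 * (1 - sqr y) by ring,
      show (0 : ℝ) = R ^ 2 * 0 by ring, ← mul_max_of_nonneg _ _ (sq_nonneg R), mul_pow, mul_zero]
    ring
  simp only [e, integral_const_mul] at h
  have h1 : ∫ x, bump b R x = R ^ n * (R ^ 6 * mass n 3) := by
    simp only [mass]
    rw [h, mul_inv_cancel_left₀ (pow_ne_zero _ hR.ne')]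
  rw [h1, pow_add]
  ring

theorem bump_support {b x : Fin n → ℝ} {R : ℝ} (hR : 0 ≤ R) (hR1 : R ≤ 1)
    (h : bump b R x ≠ 0) : sqr (x - b) ≤ 1 := by
  by_contra hlt
  push Not at hlt
  refine h ?_
  have := pow_le_one₀ (n := 2) hR hR1
  simp [bump, posPow, max_eq_right (show R ^ 2 - sqr (x - b) ≤ 0 by linarith)]

theorem integrable_bump_mul {f : (Fin n → ℝ) → ℝ} (hf : Continuous f) (b : Fin n → ℝ) {R : ℝ}
    (hR : 0 ≤ R) : Integrable fun x => f x * bump b R x :=
  integrable_weight hf b hR 3 (by norm_num)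

/-- The negative of `u` is superharmonic against the negative source. -/
theorem super_neg_u (h : Sol p q u v) (hp : 0 ≤ p) :
    PunctSuper (fun x => -u x) fun x => -(v x ^ p) := by
  refine ⟨h.cont_u.neg, h.smooth_u.neg, (h.cont_v.rpow_const fun _ => Or.inr hp).neg, fun x hx => ?_⟩
  have e := lap_sub isOpen_ne (f := fun _ => (0 : ℝ)) contDiffOn_const h.smooth_u hx
  simp only [zero_sub] at e
  have z : lap (fun _ : Fin n → ℝ => (0 : ℝ)) x = 0 := by
    have e0 : ∀ i, pd (fun _ : Fin n → ℝ => (0 : ℝ)) i = fun _ => 0 := fun i =>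
      funext fun y => pd_const _ _
    simp [lap, e0, pd_const]
  rw [e, z, h.eq_u x hx]
  simp

/-- The means of `u` stay up. -/
theorem exists_mean_u (hp : 0 < p) (hn : 3 ≤ n) {c C : ℝ} (hc : 0 < c) (hC : 0 < C) :
    ∃ R₁ > 0, R₁ ≤ 1 ∧ ∀ (u v : (Fin n → ℝ) → ℝ) (b : Fin n → ℝ), Sol p q u v → c ≤ u b →
      (∀ x, sqr (x - b) ≤ 1 → v x ≤ C) →
      ∀ R, 0 ≤ R → R ≤ R₁ → c * mass n 2 / 2 ≤ mean u b R := by
  have hm2 := mass_pos n 2 one_le_two
  have hm3 := mass_pos n 3 (by norm_num)
  set K := C ^ p * mass n 3 / 12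
  have hK : 0 < K := by positivity
  refine ⟨min 1 (c * mass n 2 / 2 / K), lt_min one_pos (by positivity), min_le_left _ _,
    fun u v b h hub hv R hR hR₁ => ?_⟩
  have hS := super_neg_u h hp.le
  have hd : ∀ r : ℝ, 0 < r → HasDerivAt (fun r => mean (fun x => -u x) b r - K * r ^ 2)
      (deriv (mean (fun x => -u x) b) r - K * (2 * r)) r := fun r hr => by
    refine ((hasDerivAt_mean hS.cont b hr).differentiableAt.hasDerivAt.sub
      ((hasDerivAt_pow 2 r).const_mul K)).congr_deriv ?_
    simp
  have hanti : AntitoneOn (fun r => mean (fun x => -u x) b r - K * r ^ 2) (Icc 0 R) := by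
    refine antitoneOn_of_deriv_nonpos (convex_Icc _ _) ((continuous_mean hS.cont b).sub
      (continuous_const.mul (continuous_pow 2))).continuousOn ?_ ?_
    · rw [interior_Icc]
      exact fun r hr => (hd r hr.1).differentiableAt.differentiableWithinAt
    · rw [interior_Icc]
      intro r hr
      have hr0 : 0 < r := hr.1
      have hr1 : r ≤ 1 := hr.2.le.trans (hR₁.trans (min_le_left _ _))
      rw [(hd r hr.1).deriv]
      have h1 := hS.deriv_mean_le hn b hr0
      have h2 : -(C ^ p * (r ^ (n + 6) * mass n 3)) ≤ ∫ x, -(v x ^ p) * bump b r x := by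
        rw [← integral_bump_at b hr0, ← integral_const_mul, ← integral_neg]
        refine integral_mono ?_ (integrable_bump_mul
          (h.cont_v.rpow_const fun _ => Or.inr hp.le).neg b hr0.le) fun x => ?_
        · exact ((integrable_bump_mul (f := fun _ => C ^ p) continuous_const b hr0.le)).neg
        · rcases eq_or_ne (bump b r x) 0 with hb | hb
          · simp [hb]
          · have h3 := Real.rpow_le_rpow (h.pos_v x).le (hv x (bump_support hr0.le hr1 hb)) hp.le
            have := mul_le_mul_of_nonneg_right h3 (bump_nonneg b r x)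
            show -(C ^ p * bump b r x) ≤ -(v x ^ p) * bump b r x
            linarith
      have e : (r ^ (n + 5))⁻¹ / 6 * (C ^ p * (r ^ (n + 6) * mass n 3)) = K * (2 * r) := by
        rw [show n + 6 = n + 5 + 1 by omega, pow_succ]
        simp only [K]
        field_simp
        ring
      have h4 := mul_le_mul_of_nonneg_left h2 (show 0 ≤ (r ^ (n + 5))⁻¹ / 6 by positivity)
      linarith
  have h1 := hanti ⟨le_rfl, hR⟩ ⟨hR, le_rfl⟩ hR
  have e : mean (fun x => -u x) b R = -mean u b R := by simp [mean, integral_neg]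
  have e0 : mean (fun x => -u x) b 0 = -(u b * mass n 2) := by rw [mean_zero]; ring
  simp only [e, e0] at h1
  have h2 : K * R ^ 2 ≤ c * mass n 2 / 2 := by
    have h3 : R ≤ c * mass n 2 / 2 / K := hR₁.trans (min_le_right _ _)
    rw [le_div_iff₀ hK] at h3
    have h4 : R ≤ 1 := hR₁.trans (min_le_left _ _)
    nlinarith [mul_le_mul_of_nonneg_left (mul_le_of_le_one_left hR h4) hK.le]
  have := mul_le_mul_of_nonneg_right hub hm2.le
  linarith

/-- The means of `v` at a small radius are up, and with them `v` on every ball. -/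
theorem exists_v_lower (hp : 0 < p) (hq : 0 < q) (hn : 3 ≤ n) {c C : ℝ} (hc : 0 < c) (hC : 0 < C) :
    ∃ R₂ > 0, ∃ κ > 0, ∀ (u v : (Fin n → ℝ) → ℝ) (b : Fin n → ℝ), Sol p q u v → c ≤ u b →
      (∀ x, sqr (x - b) ≤ 1 → u x ≤ C) → (∀ x, sqr (x - b) ≤ 1 → v x ≤ C) →
      ∀ (x : Fin n → ℝ) (ρ : ℝ), dist2 x b ≤ ρ → (R₂ / (R₂ + ρ)) ^ (n + 4) * κ ≤ v x := by
  obtain ⟨R₁, hR₁, hR₁1, hmean⟩ := exists_mean_u (q := q) hp hn hc hC
  have hm2 := mass_pos n 2 one_le_two
  have hm3 := mass_pos n 3 (by norm_num)
  set κ₀ := c * mass n 2 / 2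
  have hκ₀ : 0 < κ₀ := by positivity
  set η := κ₀ / (2 ^ (n + 6) * mass n 3)
  have hη : 0 < η := by positivity
  set a := η ^ q / C
  have ha : 0 < a := by positivity
  set k := a * κ₀ * R₁ / (6 * 2 ^ (n + 6))
  have hk : 0 < k := by positivity
  refine ⟨R₁ / 2, by positivity, k * (R₁ / 2) / mass n 2, by positivity,
    fun u v b h hub hu hv x ρ hx => ?_⟩
  have hS := h.super_v hq.le
  have hd : ∀ r : ℝ, 0 < r → HasDerivAt (fun r => mean v b r + k * r)
      (deriv (mean v b) r + k) r := fun r hr => by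
    refine ((hasDerivAt_mean hS.cont b hr).differentiableAt.hasDerivAt.add
      ((hasDerivAt_id r).const_mul k)).congr_deriv ?_
    simp
  have hanti : AntitoneOn (fun r => mean v b r + k * r) (Icc (R₁ / 2) R₁) := by
    refine antitoneOn_of_deriv_nonpos (convex_Icc _ _) ((continuous_mean hS.cont b).add
      (continuous_const.mul continuous_id)).continuousOn ?_ ?_
    · rw [interior_Icc]
      exact fun r hr => (hd r (by linarith [hr.1])).differentiableAt.differentiableWithinAt
    · rw [interior_Icc]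
      intro r hr
      have hr0 : 0 < r := by linarith [hr.1]
      have hr1 : r ≤ 1 := by linarith [hr.2]
      rw [(hd r hr0).deriv]
      have h1 := hS.deriv_mean_le hn b hr0
      set r' := r / 2 with hr'
      have hr'0 : 0 < r' := by positivity
      have hmu := hmean u v b h hub hv r' hr'0.le (by rw [hr']; linarith [hr.2])
      have i1 : ∫ y, u y * posPow 2 (r' ^ 2 - sqr (y - b)) = r' ^ (n + 4) * mean u b r' := by
        rw [mean_eq u b hr'0, mul_inv_cancel_left₀ (pow_ne_zero _ hr'0.ne')]
      have h2 : a * (3 * r' ^ 2 * (r' ^ (n + 4) * mean u b r') - η * (r ^ (n + 6) * mass n 3))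
          ≤ ∫ y, u y ^ q * bump b r y := by
        rw [← i1, ← integral_bump_at b hr0, ← integral_const_mul, ← integral_const_mul,
          ← integral_sub ((integrable_weight h.cont_u b hr'0.le 2 one_le_two).const_mul _)
            (integrable_bump_mul continuous_const b hr0.le), ← integral_const_mul]
        refine integral_mono ((((integrable_weight h.cont_u b hr'0.le 2 one_le_two).const_mul _).sub
            (integrable_bump_mul continuous_const b hr0.le)).const_mul _)
          (integrable_bump_mul (h.cont_u.rpow_const fun _ => Or.inr hq.le) b hr0.le) fun y => ?_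
        simp only [Pi.sub_apply]
        have hb0 := bump_nonneg b r y
        have hu0 := h.pos_u y
        have hcmp : 3 * r' ^ 2 * posPow 2 (r' ^ 2 - sqr (y - b)) ≤ bump b r y := by
          rcases le_or_gt (r' ^ 2 - sqr (y - b)) 0 with hz | hz
          · simp [posPow, max_eq_right hz, hb0]
          · have e : r ^ 2 - sqr (y - b) = 3 * r' ^ 2 + (r' ^ 2 - sqr (y - b)) := by
              rw [hr']; ring
            simp only [bump, posPow]
            rw [max_eq_left hz.le, max_eq_left (by rw [e]; positivity), pow_succ _ 2, mul_comm (3 * r' ^ 2)]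
            have := sq_nonneg r'
            exact mul_le_mul (pow_le_pow_left₀ hz.le (by linarith) 2) (by linarith [sqr_nonneg (y - b)])
              (by positivity) (sq_nonneg _)
        rcases eq_or_ne (bump b r y) 0 with hb | hb
        · have : 3 * r' ^ 2 * posPow 2 (r' ^ 2 - sqr (y - b)) = 0 :=
            le_antisymm (hb ▸ hcmp) (mul_nonneg (by positivity) (posPow_nonneg _ _))
          rw [hb, show 3 * r' ^ 2 * (u y * posPow 2 (r' ^ 2 - sqr (y - b)))
            = u y * (3 * r' ^ 2 * posPow 2 (r' ^ 2 - sqr (y - b))) by ring, this]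
          simp
        · have h3 := mul_le_mul_of_nonneg_right (affine_le_rpow hu0 (hu y (bump_support hr0.le hr1 hb)) hq hη) hb0
          have h4 := mul_le_mul_of_nonneg_left hcmp (mul_nonneg ha.le hu0.le)
          simp only [a] at h3 h4 ⊢
          linarith
      have h5 : a * (2 * κ₀ * r' ^ (n + 6)) ≤ ∫ y, u y ^ q * bump b r y := by
        refine le_trans (mul_le_mul_of_nonneg_left ?_ ha.le) h2
        rw [show r = 2 * r' by rw [hr']; ring, mul_pow,
          show η * (2 ^ (n + 6) * r' ^ (n + 6) * mass n 3) = κ₀ * r' ^ (n + 6) by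
            simp only [η]; field_simp,
          show 3 * r' ^ 2 * (r' ^ (n + 4) * mean u b r') = 3 * mean u b r' * r' ^ (n + 6) by ring]
        have := mul_le_mul_of_nonneg_right hmu (pow_nonneg hr'0.le (n + 6))
        linarith
      have h6 : k ≤ (r ^ (n + 5))⁻¹ / 6 * (a * (2 * κ₀ * r' ^ (n + 6))) := by
        have e : (r ^ (n + 5))⁻¹ / 6 * (a * (2 * κ₀ * r' ^ (n + 6)))
            = a * κ₀ * (2 * r) / (6 * 2 ^ (n + 6)) := by
          rw [hr', div_pow, show r ^ (n + 6) = r ^ (n + 5) * r from pow_succ r (n + 5)]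
          field_simp
        rw [e]
        refine div_le_div_of_nonneg_right (mul_le_mul_of_nonneg_left ?_ (by positivity)) (by positivity)
        linarith [hr.1]
      have h7 := mul_le_mul_of_nonneg_left h5 (show 0 ≤ (r ^ (n + 5))⁻¹ / 6 by positivity)
      linarith
  have h1 := hanti ⟨le_rfl, by linarith⟩ ⟨by linarith, le_rfl⟩ (by linarith)
  have h2 : 0 ≤ mean v b R₁ := mean_nonneg (fun y => (h.pos_v y).le) b R₁
  have h3 : k * (R₁ / 2) ≤ mean v b (R₁ / 2) := by simp only at h1; linarith
  have hρ : 0 ≤ ρ := (Real.sqrt_nonneg _).trans hx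
  set d := dist2 x b
  have hd0 : 0 ≤ d := Real.sqrt_nonneg _
  have h4 := (mean_transfer h.cont_v (fun y => (h.pos_v y).le) x b (show 0 < R₁ / 2 by positivity)).trans
    (hS.mean_le hn (fun y => Real.rpow_nonneg (h.pos_u y).le q) x (by linarith))
  rw [← mul_div_assoc, div_le_iff₀ hm2]
  refine le_trans ?_ h4
  refine mul_le_mul (pow_le_pow_left₀ (by positivity) ?_ _) h3 (by positivity) (by positivity)
  exact div_le_div_of_nonneg_left (by positivity) (by linarith) (by linarith)

/-- A continuous function below `ε u ^ s` on the unit ball, with integral bounded below. -/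
theorem exists_test (hp : 0 < p) (hn : 3 ≤ n) {c C s ε : ℝ} (hc : 0 < c) (hC : 0 < C) (hs : 0 < s)
    (hε : 0 < ε) :
    ∃ J > 0, ∀ (u v : (Fin n → ℝ) → ℝ) (b : Fin n → ℝ), Sol p q u v → c ≤ u b →
      (∀ x, sqr (x - b) ≤ 1 → u x ≤ C) → (∀ x, sqr (x - b) ≤ 1 → v x ≤ C) →
      ∃ g : (Fin n → ℝ) → ℝ, Continuous g ∧ (∀ x, 1 ≤ sqr (x - b) → g x = 0) ∧
        (∀ x, sqr (x - b) < 1 → g x ≤ ε * u x ^ s) ∧ J ≤ ∫ x, g x := by
  obtain ⟨R, hR, hR1, hmean⟩ := exists_mean_u (q := q) hp hn hc hC
  have hm2 := mass_pos n 2 one_le_two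
  set η := c / 4
  have hη : 0 < η := by positivity
  set a := η ^ s / C
  have ha : 0 < a := by positivity
  refine ⟨ε * a * (R ^ (n + 4) * (c * mass n 2 / 4)), by positivity, fun u v b h hub hu hv => ?_⟩
  refine ⟨fun x => ε * a * ((u x - η) * posPow 2 (R ^ 2 - sqr (x - b))),
    continuous_const.mul ((h.cont_u.sub continuous_const).mul ((continuous_posPow 2).comp
      (continuous_const.sub (continuous_sqr.comp (continuous_id.sub continuous_const))))),
    fun x hx => ?_, fun x hx => ?_, ?_⟩
  · have := pow_le_one₀ (n := 2) hR.le hR1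
    simp [posPow, max_eq_right (show R ^ 2 - sqr (x - b) ≤ 0 by linarith)]
  · have hu0 := h.pos_u x
    have hw0 := posPow_nonneg 2 (R ^ 2 - sqr (x - b))
    have hw1 : posPow 2 (R ^ 2 - sqr (x - b)) ≤ 1 := by
      refine pow_le_one₀ (le_max_right _ _) (max_le ?_ zero_le_one)
      linarith [pow_le_one₀ (n := 2) hR.le hR1, sqr_nonneg (x - b)]
    show ε * a * ((u x - η) * posPow 2 (R ^ 2 - sqr (x - b))) ≤ ε * u x ^ s
    rw [mul_assoc ε a, ← mul_assoc a]
    refine mul_le_mul_of_nonneg_left ?_ hε.le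
    refine (mul_le_mul_of_nonneg_right (affine_le_rpow hu0 (hu x hx.le) hs hη) hw0).trans ?_
    exact mul_le_of_le_one_right (Real.rpow_nonneg hu0.le s) hw1
  · have h1 := hmean u v b h hub hv R hR.le le_rfl
    have i1 : ∀ f : (Fin n → ℝ) → ℝ, ∫ y, f y * posPow 2 (R ^ 2 - sqr (y - b))
        = R ^ (n + 4) * mean f b R := fun f => by
      rw [mean_eq f b hR, mul_inv_cancel_left₀ (pow_ne_zero _ hR.ne')]
    rw [integral_const_mul]
    refine mul_le_mul_of_nonneg_left ?_ (by positivity)
    simp only [sub_mul]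
    rw [integral_sub (integrable_weight h.cont_u b hR.le 2 one_le_two)
      (integrable_weight continuous_const b hR.le 2 one_le_two), i1 u, i1 fun _ => η, mean_const,
      ← mul_sub]
    refine mul_le_mul_of_nonneg_left ?_ (by positivity)
    simp only [η]
    linarith

end

end Vale.Agent.P100.Local
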