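import Mathlib
import Vale.Agent.P100.Local.Lower

/-!
# P100: `u ≤ K v` far inside a ball where the solution is bounded

On the ball where `u, v ≤ C` the excess `u - K v` is a subsolution of `Δw = u ^ q K / 2`. So it stays
below a quadratic that is at most `C` at the boundary, up to a constant that tends to zero with the
radius. The origin is negligible.
-/

namespace Vale.Agent.P100.Local

open MeasureTheory Set Filter Topology Finset Function
open Vale.Agent.P098.Cone
open scoped ContDiff

noncomputable section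

variable {n : ℕ} {p q : ℝ} {u v : (Fin n → ℝ) → ℝ}

theorem lap_quad (b x : Fin n → ℝ) (δ m : ℝ) :
    lap (fun y => δ + m * sqr (y - b)) x = 2 * n * m := by
  have h1 : ∀ t : ℝ, HasDerivAt (fun t => δ + m * t) m t := fun t => by
    simpa using ((hasDerivAt_id t).const_mul m).const_add δ
  have h := (radial (θ := fun t => δ + m * t) (θ' := fun _ => m) (θ'' := fun _ => 0) h1
    (fun t => hasDerivAt_const t m) (x - b)).2
  rw [lap_translate (fun y => δ + m * sqr y) b x, h]
  ring

/-- The comparison inside a ball. -/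
theorem excess_le (h : Sol p q u v) (hn : 3 ≤ n) (hq : 0 < q) (hqp : q ≤ p) {b : Fin n → ℝ}
    {C K δ L : ℝ} (hC : 0 < C) (hK0 : 0 < K) (hδ : 0 < δ) (hL : 0 < L)
    (hu : ∀ x, sqr (x - b) ≤ L ^ 2 → u x ≤ C) (hv : ∀ x, sqr (x - b) ≤ L ^ 2 → v x ≤ C)
    (hK : 2 * C ^ (p - q) ≤ K ^ (q + 1)) (hbar : 2 * n * (C / L ^ 2) ≤ K / 2 * δ ^ q)
    {x : Fin n → ℝ} (hx : sqr (x - b) < L ^ 2) :
    u x - K * v x ≤ δ + C / L ^ 2 * sqr (x - b) := by
  set m := C / L ^ 2
  have hm : 0 < m := by positivity
  set W : (Fin n → ℝ) → ℝ := fun y => (u y - K * v y) - (δ + m * sqr (y - b)) with hW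
  have hWc : Continuous W := (h.cont_u.sub (continuous_const.mul h.cont_v)).sub
    (continuous_const.add (continuous_const.mul (continuous_sqr.comp (continuous_id.sub continuous_const))))
  have hsq : Continuous fun y : Fin n → ℝ => sqr (y - b) :=
    continuous_sqr.comp (continuous_id.sub continuous_const)
  classical
  set F : (Fin n → ℝ) → ℝ := fun y => if sqr (y - b) < L ^ 2 then -flat (W y) else 0 with hF
  have hO1 : IsOpen {y : Fin n → ℝ | sqr (y - b) < L ^ 2} := isOpen_lt hsq continuous_const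
  have hO2 : IsOpen ({y : Fin n → ℝ | W y < 0} ∪ {y | L ^ 2 < sqr (y - b)}) :=
    (isOpen_lt hWc continuous_const).union (isOpen_lt continuous_const hsq)
  have hzero : ∀ y ∈ {y : Fin n → ℝ | W y < 0} ∪ {y | L ^ 2 < sqr (y - b)}, F y = 0 := by
    intro y hy
    simp only [F]
    split_ifs with hb
    · rcases hy with hy | hy
      · simp [flat, expNegInvGlue.zero_of_nonpos (show W y ≤ 0 from le_of_lt hy)]
      · exact absurd hb (not_lt.2 (le_of_lt hy))
    · rfl
  have hcover : ∀ y, sqr (y - b) < L ^ 2 ∨ y ∈ {y : Fin n → ℝ | W y < 0} ∪ {y | L ^ 2 < sqr (y - b)} := by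
    intro y
    rcases lt_trichotomy (sqr (y - b)) (L ^ 2) with h1 | h1 | h1
    · exact Or.inl h1
    · refine Or.inr (Or.inl ?_)
      show W y < 0
      have h2 := hu y h1.le
      have h3 := mul_pos hK0 (h.pos_v y)
      have h4 : m * sqr (y - b) = C := by rw [h1]; simp only [m]; field_simp
      simp only [W]
      linarith
    · exact Or.inr (Or.inr h1)
  have hev1 : ∀ y, sqr (y - b) < L ^ 2 → F =ᶠ[𝓝 y] fun z => -flat (W z) := fun y hy => by
    filter_upwards [hO1.mem_nhds hy] with z hz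
    have hz' : sqr (z - b) < L ^ 2 := hz
    simp [F, hz']
  have hev2 : ∀ y, y ∈ {y : Fin n → ℝ | W y < 0} ∪ {y | L ^ 2 < sqr (y - b)} →
      F =ᶠ[𝓝 y] fun _ => 0 := fun y hy => by
    filter_upwards [hO2.mem_nhds hy] with z hz using hzero z hz
  have hO : IsOpen {y : Fin n → ℝ | y ≠ 0} := isOpen_ne
  have hWs : ContDiffOn ℝ 2 W {y | y ≠ 0} :=
    (h.smooth_u.sub (contDiffOn_const.mul h.smooth_v)).sub (contDiffOn_const.add
      (contDiffOn_const.mul ((contDiff_sqr.comp (contDiff_id.sub contDiff_const)).of_le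
        (WithTop.coe_le_coe.2 le_top)).contDiffOn))
  have hlap : ∀ y, y ≠ 0 → sqr (y - b) < L ^ 2 → 0 < W y → 0 ≤ lap W y := by
    intro y hy hyb hWy
    have hpw : ContDiffOn ℝ 2 (fun z => K * v z) {z | z ≠ 0} := contDiffOn_const.mul h.smooth_v
    have hφ : ContDiffOn ℝ 2 (fun z => δ + m * sqr (z - b)) {z : Fin n → ℝ | z ≠ 0} :=
      contDiffOn_const.add (contDiffOn_const.mul
        ((contDiff_sqr.comp (contDiff_id.sub contDiff_const)).of_le
          (WithTop.coe_le_coe.2 le_top)).contDiffOn)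
    have eK : lap (fun z => K * v z) y = K * lap v y := by
      rw [lap_comp (θ := fun t => K * t) (θ' := fun _ => K) hO h.smooth_v hy
        (.of_forall fun t => by simpa using (hasDerivAt_id t).const_mul K) (hasDerivAt_const _ K)]
      ring
    rw [hW, lap_sub hO (h.smooth_u.sub hpw) hφ hy, lap_sub hO h.smooth_u hpw hy, eK, h.eq_u y hy,
      h.eq_v y hy, lap_quad]
    have hu0 := h.pos_u y
    have hv0 := h.pos_v y
    have hφ0 : δ ≤ δ + m * sqr (y - b) :=
      le_add_of_nonneg_right (mul_nonneg hm.le (sqr_nonneg _))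
    simp only [W] at hWy
    have huv : v y ≤ u y / K := by
      rw [le_div_iff₀ hK0]; linarith
    have hδu : δ ≤ u y := by linarith [mul_pos hK0 hv0]
    have h1 : v y ^ p ≤ K / 2 * u y ^ q := by
      calc v y ^ p = v y ^ (p - q) * v y ^ q := by rw [← Real.rpow_add hv0, sub_add_cancel]
        _ ≤ C ^ (p - q) * (u y / K) ^ q :=
            mul_le_mul (Real.rpow_le_rpow hv0.le (hv y hyb.le) (by linarith))
              (Real.rpow_le_rpow hv0.le huv hq.le) (Real.rpow_nonneg hv0.le _)
              (Real.rpow_nonneg hC.le _)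
        _ ≤ K ^ (q + 1) / 2 * (u y / K) ^ q :=
            mul_le_mul_of_nonneg_right (by linarith) (Real.rpow_nonneg (by positivity) _)
        _ = _ := by
            rw [Real.div_rpow hu0.le hK0.le, Real.rpow_add_one hK0.ne']
            have := (Real.rpow_pos_of_pos hK0 q).ne'
            field_simp
    have h2 : K / 2 * δ ^ q ≤ K / 2 * u y ^ q :=
      mul_le_mul_of_nonneg_left (Real.rpow_le_rpow hδ.le hδu hq.le) (by positivity)
    linarith
  have hsup : PunctSuper F fun _ => 0 := by
    refine ⟨continuous_iff_continuousAt.2 fun y => ?_, fun y hy => ?_, continuous_const, fun y hy => ?_⟩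
    · rcases hcover y with h1 | h1
      · exact (contDiff_flat.continuous.comp hWc).neg.continuousAt.congr (hev1 y h1).symm
      · exact continuousAt_const.congr (hev2 y h1).symm
    · rcases hcover y with h1 | h1
      · exact ((((contDiff_flat.comp_contDiffOn hWs).neg).contDiffAt
          (hO.mem_nhds hy)).congr_of_eventuallyEq (hev1 y h1)).contDiffWithinAt
      · exact (contDiffAt_const.congr_of_eventuallyEq (hev2 y h1)).contDiffWithinAt
    · rcases hcover y with h1 | h1
      · rw [lap_congr (hev1 y h1), lap_comp (θ := fun s => -flat s) hO hWs hy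
          (.of_forall fun t => (hasDerivAt_flat t).neg) (hasDerivAt_flat' (W y)).neg, neg_zero]
        rcases le_or_gt (W y) 0 with hwy | hwy
        · simp [expNegInvGlue.zero_of_nonpos hwy]
        · have hg := expNegInvGlue.nonneg (W y)
          have := hlap y hy h1 hwy
          have hinv : 0 < (W y)⁻¹ := inv_pos.2 hwy
          have a1 : 0 ≤ (1 + (W y)⁻¹) * expNegInvGlue (W y) * lap W y := by positivity
          have a2 : 0 ≤ (W y)⁻¹ ^ 3 * expNegInvGlue (W y) * ∑ i, pd W i y ^ 2 :=
            mul_nonneg (by positivity) (sum_nonneg fun i _ => sq_nonneg _)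
          linarith
      · rw [lap_congr (hev2 y h1), neg_zero]
        refine le_of_eq ?_
        have e0 : ∀ i, pd (fun _ : Fin n → ℝ => (0 : ℝ)) i = fun _ => 0 := fun i =>
          funext fun z => pd_const _ _
        simp [lap, e0, pd_const]
  -- compact support
  have hFs : HasCompactSupport F := HasCompactSupport.intro
    (K := Icc (fun i => b i - L) fun i => b i + L) isCompact_Icc fun y hy => by
    simp only [F]
    split_ifs with hb
    · exact absurd (mem_box hL.le hb.le) hy
    · rfl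
  have hFi : Integrable F := hsup.cont.integrable_of_hasCompactSupport hFs
  have hFle : ∀ y, F y ≤ 0 := fun y => by
    simp only [F]
    split_ifs
    · exact neg_nonpos.2 (flat_nonneg _)
    · exact le_rfl
  have hmean : ∀ R : ℝ, 1 ≤ R → (R⁻¹) ^ n * ∫ y, F y ≤ mean F x R := fun R hR => by
    have hR0 : 0 < R := by linarith
    rw [mean_eq F x hR0, show (R⁻¹) ^ n = (R ^ (n + 4))⁻¹ * R ^ 4 by
      rw [inv_pow, pow_add]; field_simp, mul_assoc]
    refine mul_le_mul_of_nonneg_left ?_ (by positivity)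
    rw [← integral_const_mul]
    refine integral_mono (hFi.const_mul _) (integrable_weight hsup.cont x hR0.le 2 one_le_two) fun y => ?_
    have h1 : posPow 2 (R ^ 2 - sqr (y - x)) ≤ R ^ 4 := by
      simp only [posPow]
      rw [show R ^ 4 = (R ^ 2) ^ 2 by ring]
      exact pow_le_pow_left₀ (le_max_right _ _) (max_le (by linarith [sqr_nonneg (y - x)]) (sq_nonneg R)) 2
    rw [mul_comm (R ^ 4)]
    exact mul_le_mul_of_nonpos_left h1 (hFle y)
  have hlim : Tendsto (fun R : ℝ => (R⁻¹) ^ n * ∫ y, F y) atTop (𝓝 0) := by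
    have := (tendsto_inv_atTop_zero (𝕜 := ℝ)).pow n
    rw [zero_pow (by omega)] at this
    simpa using this.mul_const (∫ y, F y)
  have hFx : 0 ≤ F x * mass n 2 := le_of_tendsto hlim (by
    filter_upwards [eventually_ge_atTop 1] with R hR
    exact (hmean R hR).trans (hsup.mean_le hn (fun _ => le_rfl) x (by linarith)))
  have hm2 := mass_pos n 2 one_le_two
  by_contra hcon
  push Not at hcon
  have hWx : 0 < W x := by simp only [W]; linarith
  have : F x < 0 := by
    simp only [F, hx, if_true, neg_lt_zero]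
    exact mul_pos hWx (expNegInvGlue.pos_of_pos hWx)
  nlinarith

/-- `u ≤ 2 K v` on a fixed ball, when the bounded ball is large. -/
theorem exists_below (hn : 3 ≤ n) (hq : 0 < q) (hqp : q ≤ p) {c C : ℝ} (hc : 0 < c) (hC : 0 < C) :
    ∃ K > 0, ∀ ρ : ℝ, 0 < ρ → ∃ L₀ > 0, ∀ (u v : (Fin n → ℝ) → ℝ) (b : Fin n → ℝ) (L : ℝ), Sol p q u v → L₀ ≤ L →
      c ≤ u b → (∀ x, sqr (x - b) ≤ L ^ 2 → u x ≤ C) → (∀ x, sqr (x - b) ≤ L ^ 2 → v x ≤ C) →
      ∀ x, sqr (x - b) ≤ ρ ^ 2 → u x ≤ K * v x := by
  obtain ⟨R, hR, κ, hκ, hlow⟩ := exists_v_lower (n := n) (hq.trans_le hqp) hq hn hc hC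
  set K := max 1 ((2 * C ^ (p - q)) ^ (1 / (q + 1)))
  have hK0 : 0 < K := zero_lt_one.trans_le (le_max_left _ _)
  have hK : 2 * C ^ (p - q) ≤ K ^ (q + 1) := by
    refine le_trans (le_of_eq ?_) (Real.rpow_le_rpow (by positivity) (le_max_right _ _) (by linarith))
    rw [← Real.rpow_mul (by positivity), one_div_mul_cancel (by linarith), Real.rpow_one]
  refine ⟨2 * K, by positivity, fun ρ hρ => ?_⟩
  set v₀ := (R / (R + ρ)) ^ (n + 4) * κ
  have hv₀ : 0 < v₀ := by positivity
  set δ := K * v₀ / 2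
  have hδ : 0 < δ := by positivity
  set B := max (max 1 (2 * n * C / (K / 2 * δ ^ q))) (C * ρ ^ 2 / (K * v₀ / 2))
  have hB : 0 < B := lt_max_of_lt_left (lt_max_of_lt_left one_pos)
  refine ⟨max (√B) (ρ + 1), lt_max_of_lt_right (by linarith),
    fun u v b L h hL hub hu hv x hx => ?_⟩
  have hLρ : ρ + 1 ≤ L := (le_max_right _ _).trans hL
  have hL0 : 0 < L := by linarith
  have hL1 : 1 ≤ L := by linarith
  have hBL : B ≤ L ^ 2 := (Real.sqrt_le_left hL0.le).1 ((le_max_left _ _).trans hL)
  have hsub : ∀ y, sqr (y - b) ≤ 1 → sqr (y - b) ≤ L ^ 2 := fun y hy => hy.trans (one_le_pow₀ hL1)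
  have hvx : v₀ ≤ v x := hlow u v b h hub (fun y hy => hu y (hsub y hy)) (fun y hy => hv y (hsub y hy))
    x ρ (by rw [dist2, Real.sqrt_le_left hρ.le]; exact hx)
  have hρL : sqr (x - b) < L ^ 2 :=
    hx.trans_lt (pow_lt_pow_left₀ (by linarith) hρ.le two_ne_zero)
  have hbar : 2 * n * (C / L ^ 2) ≤ K / 2 * δ ^ q := by
    have h1 : 2 * n * C / (K / 2 * δ ^ q) ≤ L ^ 2 :=
      (le_max_of_le_left (le_max_right _ _)).trans hBL
    rw [← mul_div_assoc, div_le_iff₀ (by positivity)]
    rw [div_le_iff₀ (by positivity)] at h1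
    linarith
  have h2 := excess_le h hn hq hqp hC hK0 hδ hL0 hu hv hK hbar hρL
  have h3 : C / L ^ 2 * sqr (x - b) ≤ K * v₀ / 2 := by
    have h1 : C * ρ ^ 2 / (K * v₀ / 2) ≤ L ^ 2 := (le_max_right _ _).trans hBL
    rw [div_le_iff₀ (by positivity)] at h1
    rw [div_mul_eq_mul_div, div_le_iff₀ (by positivity)]
    have := mul_le_mul_of_nonneg_left hx hC.le
    linarith
  have := mul_le_mul_of_nonneg_left hvx hK0.le
  simp only [δ] at h2
  linarith

end

end Vale.Agent.P100.Local
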