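import Mathlib
import Vale.Agent.P100.Cutoff
import Vale.Agent.P100.Means

/-!
# P100: a local form of the cut-off argument

If `div X = P > 0` off the origin, `|X| ≤ C P ^ (1 - 1/N)` on a ball of radius comparable to `ρ`,
and `|X| ≤ C' P ^ (3/4)` near the origin, then a function below `P` supported in the unit ball around
the centre has integral at most a multiple of `ρ ^ (n - N)`, independent of `C'`.
-/

namespace Vale.Agent.P100.Local

open MeasureTheory Set Filter Topology Finset Function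
open Vale.Agent.P098.Cone
open scoped ContDiff

noncomputable section

variable {n : ℕ}

/-- The cut-off of radius `ρ` around `b`, punctured at radius `e` around the origin. -/
def cut (k : ℕ) (b : Fin n → ℝ) (ρ e : ℝ) (x : Fin n → ℝ) : ℝ :=
  ((1 - hole ρ (x - b)) * hole e x) ^ k

/-- The box around `b`. -/
def cube (b : Fin n → ℝ) (r : ℝ) : Set (Fin n → ℝ) :=
  Icc (fun i => b i - 2 * r) fun i => b i + 2 * r

theorem sqr_gt_of_notMem_cube {b x : Fin n → ℝ} {r : ℝ} (hr : 0 ≤ r) (hx : x ∉ cube b r) :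
    2 * r ^ 2 < sqr (x - b) := by
  by_contra h
  exact hx (mem_box (x := x) (a := b) (R := 2 * r) (by positivity)
    (by nlinarith [not_lt.1 h, sq_nonneg r]))

theorem volume_cube (b : Fin n → ℝ) {r : ℝ} (hr : 0 ≤ r) (c : ℝ) :
    ∫ x, (cube b r).indicator (fun _ => c) x = (4 * r) ^ n * c := by
  rw [cube, integral_indicator measurableSet_Icc, setIntegral_const, smul_eq_mul, measureReal_def,
    Real.volume_Icc_pi_toReal (fun i => by linarith)]
  simp
  ring_nf
  simp

theorem integrable_cube (b : Fin n → ℝ) (r c : ℝ) :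
    Integrable ((cube b r).indicator fun _ => c) :=
  (integrable_indicator_iff measurableSet_Icc).2
    (integrableOn_const isCompact_Icc.measure_lt_top.ne)

theorem exists_local_estimate (hn : 5 ≤ n) {N : ℝ} (hN : (n : ℝ) ≤ N) :
    ∃ A, 0 ≤ A ∧ ∀ (X : Fin n → (Fin n → ℝ) → ℝ) (P : (Fin n → ℝ) → ℝ) (b : Fin n → ℝ) (ρ C : ℝ),
      1 ≤ ρ → 0 ≤ C →
      (∀ i, ContinuousOn (X i) {x | x ≠ 0}) → ContinuousOn P {x | x ≠ 0} →
      (∀ x, x ≠ 0 → 0 < P x) →
      (∀ φ : (Fin n → ℝ) → ℝ, ContDiff ℝ 1 φ → HasCompactSupport φ →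
        tsupport φ ⊆ {x | x ≠ 0} → ∫ x, (φ x * P x + ∑ i, pd φ i x * X i x) = 0) →
      (∀ x, x ≠ 0 → sqr (x - b) ≤ 2 * ρ ^ 2 → ∀ i, |X i x| ≤ C * P x ^ (1 - 1 / N)) →
      (∃ C', ∀ x, x ≠ 0 → sqr x ≤ 4 → ∀ i, |X i x| ≤ C' * P x ^ (1 - 1 / (4 : ℝ))) →
      ∀ g : (Fin n → ℝ) → ℝ, Continuous g → (∀ x, 1 ≤ sqr (x - b) → g x = 0) →
        (∀ x, x ≠ 0 → g x ≤ P x) → ∫ x, g x ≤ A * C ^ N * ρ ^ ((n : ℝ) - N) := by
  have hn5 : (5 : ℝ) ≤ n := by exact_mod_cast hn
  have hN1 : 1 ≤ N := by linarith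
  obtain ⟨C0, hC00, hC0⟩ := hole_bound n
  obtain ⟨k, hk⟩ := exists_nat_ge (max N 4)
  have hkN : N ≤ k := (le_max_left _ _).trans hk
  have hk4 : (4 : ℝ) ≤ k := (le_max_right _ _).trans hk
  have hk0 : 1 ≤ k := by exact_mod_cast (show (1 : ℝ) ≤ k by linarith)
  set A1 := (k : ℝ) * n * C0
  refine ⟨2 * (4 : ℝ) ^ (N - 1) * 4 ^ n * A1 ^ N, by positivity,
    fun X P b ρ C hρ hC hX hPc hP hid hfar hnear g hg hgs hgP => ?_⟩
  obtain ⟨C2, hC2⟩ := hnear
  have hρ0 : 0 < ρ := by linarith
  have hA1 : 0 ≤ A1 := by positivity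
  set A2 := (k : ℝ) * n * (|C2| * C0)
  have hA2 : 0 ≤ A2 := by positivity
  have hgB : ∀ x, g x ≠ 0 → x ∈ cube b 1 := fun x hx => by
    by_contra h
    have := sqr_gt_of_notMem_cube zero_le_one h
    exact hx (hgs x (by linarith))
  have hgc : HasCompactSupport g := HasCompactSupport.intro (K := cube b 1) isCompact_Icc fun x hx => by
    by_contra h
    exact hx (hgB x h)
  have hgi : Integrable g := hg.integrable_of_hasCompactSupport hgc
  obtain ⟨G0, hG0⟩ := hgc.exists_bound_of_continuous hg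
  have hG00 : 0 ≤ G0 := (norm_nonneg _).trans (hG0 0)
  have hO : IsOpen {x : Fin n → ℝ | x ≠ 0} := isOpen_ne
  set E1 := (4 : ℝ) ^ (N - 1) * 4 ^ n * A1 ^ N * (C ^ N * ρ ^ ((n : ℝ) - N))
  set E2 := fun m : ℕ => 2 * ((4 : ℝ) ^ ((4 : ℝ) - 1) * 4 ^ n * A2 ^ (4 : ℝ) * (m : ℝ) ^ ((4 : ℝ) - n))
      + G0 * 4 ^ n * (m : ℝ) ^ (-(n : ℝ))
  have hE2 : Tendsto E2 atTop (𝓝 0) := by
    have h : ∀ e : ℝ, e < 0 → Tendsto (fun m : ℕ => (m : ℝ) ^ e) atTop (𝓝 0) := fun e he => by
      simpa [Function.comp_def] using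
        (tendsto_rpow_neg_atTop (neg_pos.2 he)).comp tendsto_natCast_atTop_atTop
    have h' := (((h _ (show (4 : ℝ) - n < 0 by linarith)).const_mul
        ((4 : ℝ) ^ ((4 : ℝ) - 1) * 4 ^ n * A2 ^ (4 : ℝ))).const_mul 2).add
      ((h _ (show -(n : ℝ) < 0 by linarith)).const_mul (G0 * 4 ^ n))
    simp only [mul_zero, add_zero] at h'
    exact h'
  have key : ∀ m : ℕ, 2 ≤ m → ∫ x, g x ≤ 2 * E1 + E2 m := by
    intro m hm
    have hm0 : 0 < (m : ℝ) := Nat.cast_pos.2 (by omega)
    have hm2 : (2 : ℝ) ≤ m := by exact_mod_cast hm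
    set e := 1 / (m : ℝ) with he
    have he0 : 0 < e := by positivity
    have he1 : e ≤ 1 / 2 := one_div_le_one_div_of_le two_pos hm2
    set χ : (Fin n → ℝ) → ℝ := fun x => 1 - hole ρ (x - b) with hχdef
    set η : (Fin n → ℝ) → ℝ := hole e
    have hh : ContDiff ℝ 1 fun x : Fin n → ℝ => hole ρ (x - b) :=
      ((contDiff_hole _).of_le (WithTop.coe_le_coe.2 le_top)).comp (contDiff_id.sub contDiff_const)
    have hχ : ContDiff ℝ 1 χ := contDiff_const.sub hh
    have hη : ContDiff ℝ 1 η := (contDiff_hole _).of_le (WithTop.coe_le_coe.2 le_top)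
    have hχ01 : ∀ x, 0 ≤ χ x ∧ χ x ≤ 1 := fun x => by
      obtain ⟨h1, h2⟩ := hole_mem (n := n) ρ (x - b)
      simp only [χ]; constructor <;> linarith
    have hη01 : ∀ x, 0 ≤ η x ∧ η x ≤ 1 := fun x => hole_mem _ x
    set φ : (Fin n → ℝ) → ℝ := cut k b ρ e with hφdef
    have hφeq : ∀ x, φ x = (χ x * η x) ^ k := fun x => rfl
    have hφ : ContDiff ℝ 1 φ := (hχ.mul hη).pow k
    have hφ0 : ∀ x, 0 ≤ φ x := fun x => pow_nonneg (mul_nonneg (hχ01 x).1 (hη01 x).1) _
    have hφ1 : ∀ x, φ x ≤ 1 := fun x =>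
      pow_le_one₀ (mul_nonneg (hχ01 x).1 (hη01 x).1)
        (mul_le_one₀ (hχ01 x).2 (hη01 x).1 (hη01 x).2)
    have hcs : HasCompactSupport φ := HasCompactSupport.intro (K := cube b ρ) isCompact_Icc fun x hx => by
      simp [hφeq, χ, ((hC0 _ hρ0 (x - b)).2.2.2 (sqr_gt_of_notMem_cube hρ0.le hx)).1,
        zero_pow (by omega : k ≠ 0)]
    have hts : tsupport φ ⊆ {x | x ≠ 0} := fun x hx (h0 : x = 0) => by
      subst h0
      refine notMem_tsupport_iff_eventuallyEq.2 ?_ hx
      filter_upwards [continuous_sqr.continuousAt.eventually (gt_mem_nhds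
        (show sqr (0 : Fin n → ℝ) < e ^ 2 by rw [sqr_zero]; positivity))] with y hy
      simp only [hφeq, η, (hC0 _ he0 y).2.2.1 hy, mul_zero, zero_pow (by omega : k ≠ 0), Pi.zero_apply]
    set F : (Fin n → ℝ) → ℝ := fun x => φ x * P x
    have hFc : Continuous F := continuous_mul_of_tsupport hφ.continuous hO hts hPc
    have hFi : Integrable F := hFc.integrable_of_hasCompactSupport hcs.mul_right
    have hF0 : ∀ x, 0 ≤ F x := fun x => by
      by_cases hx : x = 0
      · subst hx
        simp [F, image_eq_zero_of_notMem_tsupport fun h => hts h rfl]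
      · exact mul_nonneg (hφ0 x) (hP x hx).le
    set G : (Fin n → ℝ) → ℝ := fun x => ∑ i, pd φ i x * X i x
    have hGc : Continuous G := continuous_finsetSum _ fun i _ =>
      continuous_mul_of_tsupport (continuous_pd_one hφ i) hO ((tsupport_pd _ _).trans hts) (hX i)
    have hGs : HasCompactSupport G := HasCompactSupport.intro hcs fun x hx =>
      sum_eq_zero fun i _ => by
        rw [image_eq_zero_of_notMem_tsupport fun h => hx (tsupport_pd _ _ h), zero_mul]
    have hGi : Integrable G := hGc.integrable_of_hasCompactSupport hGs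
    have hI := hid φ hφ hcs hts
    rw [integral_add hFi hGi] at hI
    set c1 := (4 : ℝ) ^ (N - 1) * (A1 * C / ρ) ^ N
    set c2 := (4 : ℝ) ^ ((4 : ℝ) - 1) * (A2 / e) ^ (4 : ℝ)
    have hptw : ∀ x, -G x ≤ F x / 2 + (cube b ρ).indicator (fun _ => c1) x
        + (cube (0 : Fin n → ℝ) e).indicator (fun _ => c2) x := by
      intro x
      have hc1 : 0 ≤ (cube b ρ).indicator (fun _ => c1) x :=
        indicator_nonneg (fun _ _ => by positivity) x
      have hc2 : 0 ≤ (cube (0 : Fin n → ℝ) e).indicator (fun _ => c2) x :=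
        indicator_nonneg (fun _ _ => by positivity) x
      by_cases hx : x ∈ tsupport φ
      swap
      · have : G x = 0 := sum_eq_zero fun i _ => by
          rw [image_eq_zero_of_notMem_tsupport fun h => hx (tsupport_pd _ _ h), zero_mul]
        linarith [hF0 x]
      have hx0 : x ≠ 0 := hts hx
      have hP0 := hP x hx0
      obtain ⟨-, hgχ, -, hχ'⟩ := hC0 _ hρ0 (x - b)
      obtain ⟨-, hgη, -, hη'⟩ := hC0 _ he0 x
      have hy0 := mul_nonneg (hχ01 x).1 (hη01 x).1
      have hy1 : χ x * η x ≤ 1 := mul_le_one₀ (hχ01 x).2 (hη01 x).1 (hη01 x).2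
      set y := χ x * η x with hy
      have epd : ∀ i, pd φ i x
          = k * y ^ (k - 1) * (χ x * pd η i x - η x * pd (hole ρ) i (x - b)) := fun i => by
        have dχ := hχ.differentiable one_ne_zero x
        have dη := hη.differentiable one_ne_zero x
        rw [show φ = fun z => (fun t : ℝ => t ^ k) (χ z * η z) from rfl,
          pd_comp (hasDerivAt_pow k _) (dχ.fun_mul dη), pd_mul dχ dη]
        have : pd χ i x = -pd (hole ρ) i (x - b) := by
          simp only [χ]
          rw [pd_sub (differentiableAt_const _) (hh.differentiable one_ne_zero x), pd_const,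
            pd_translate, zero_sub]
        rw [this]; ring
      have hG : -G x ≤ ∑ i, k * y ^ (k - 1) * |pd η i x| * |X i x|
          + ∑ i, k * y ^ (k - 1) * |pd (hole ρ) i (x - b)| * |X i x| := by
        rw [← sum_add_distrib, ← sum_neg_distrib]
        refine sum_le_sum fun i _ => ?_
        rw [epd i]
        refine (neg_le_abs _).trans ?_
        rw [abs_mul, abs_mul, abs_of_nonneg (by positivity : (0 : ℝ) ≤ k * y ^ (k - 1))]
        rw [← add_mul, ← mul_add]
        refine mul_le_mul_of_nonneg_right (mul_le_mul_of_nonneg_left ?_ (by positivity)) (abs_nonneg _)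
        refine (abs_sub _ _).trans (add_le_add ?_ ?_)
        · rw [abs_mul, abs_of_nonneg (hχ01 x).1]; exact mul_le_of_le_one_left (abs_nonneg _) (hχ01 x).2
        · rw [abs_mul, abs_of_nonneg (hη01 x).1]; exact mul_le_of_le_one_left (abs_nonneg _) (hη01 x).2
      have houter : ∑ i, k * y ^ (k - 1) * |pd (hole ρ) i (x - b)| * |X i x|
          ≤ F x / 4 + (cube b ρ).indicator (fun _ => c1) x := by
        rcases le_or_gt (sqr (x - b)) (2 * ρ ^ 2) with hm' | hm'
        swap
        · simp only [(hχ' hm').2.2, abs_zero, mul_zero, zero_mul, sum_const_zero]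
          linarith [hF0 x]
        have hmB : x ∈ cube b ρ := by
          by_contra h
          linarith [sqr_gt_of_notMem_cube hρ0.le h]
        rw [indicator_of_mem hmB]
        refine le_trans ?_ (young (hF0 x) (div_nonneg (mul_nonneg hA1 hC) hρ0.le) hN1)
        calc ∑ i, k * y ^ (k - 1) * |pd (hole ρ) i (x - b)| * |X i x|
            ≤ ∑ _i : Fin n, (k * y ^ (k - 1)) * (C0 / ρ) * (C * P x ^ (1 - 1 / N)) :=
              sum_le_sum fun i _ => mul_le_mul (mul_le_mul_of_nonneg_left (hgχ i) (by positivity))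
                (hfar x hx0 hm' i) (abs_nonneg _) (by positivity)
          _ = y ^ (k - 1) * P x ^ (1 - 1 / N) * (A1 * C / ρ) := by
              simp only [sum_const, card_univ, Fintype.card_fin, nsmul_eq_mul, A1]; ring
          _ ≤ _ := by
              refine mul_le_mul_of_nonneg_right ?_ (div_nonneg (mul_nonneg hA1 hC) hρ0.le)
              rw [Real.mul_rpow (hφ0 x) hP0.le]
              exact mul_le_mul_of_nonneg_right (window_pow_le hy0 hy1 hN1 hkN)
                (Real.rpow_nonneg hP0.le _)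
      have hinner : ∑ i, k * y ^ (k - 1) * |pd η i x| * |X i x|
          ≤ F x / 4 + (cube (0 : Fin n → ℝ) e).indicator (fun _ => c2) x := by
        rcases le_or_gt (sqr x) (2 * e ^ 2) with hm' | hm'
        swap
        · simp only [η, (hη' hm').2.2, abs_zero, mul_zero, zero_mul, sum_const_zero]
          linarith [hF0 x]
        have hmB : x ∈ cube (0 : Fin n → ℝ) e := by
          by_contra h
          have := sqr_gt_of_notMem_cube he0.le h
          rw [sub_zero] at this
          linarith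
        rw [indicator_of_mem hmB]
        have h4 : sqr x ≤ 4 := by
          have := pow_le_pow_left₀ he0.le he1 2
          linarith
        refine le_trans ?_ (young (hF0 x) (div_nonneg hA2 he0.le) (by norm_num : (1 : ℝ) ≤ 4))
        calc ∑ i, k * y ^ (k - 1) * |pd η i x| * |X i x|
            ≤ ∑ _i : Fin n, (k * y ^ (k - 1)) * (C0 / e) * (|C2| * P x ^ (1 - 1 / (4 : ℝ))) :=
              sum_le_sum fun i _ => mul_le_mul (mul_le_mul_of_nonneg_left (hgη i) (by positivity))
                ((hC2 x hx0 h4 i).trans (mul_le_mul_of_nonneg_right (le_abs_self _)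
                  (Real.rpow_nonneg hP0.le _))) (abs_nonneg _) (by positivity)
          _ = y ^ (k - 1) * P x ^ (1 - 1 / (4 : ℝ)) * (A2 / e) := by
              simp only [sum_const, card_univ, Fintype.card_fin, nsmul_eq_mul, A2]; ring
          _ ≤ _ := by
              refine mul_le_mul_of_nonneg_right ?_ (div_nonneg hA2 he0.le)
              rw [Real.mul_rpow (hφ0 x) hP0.le]
              exact mul_le_mul_of_nonneg_right (window_pow_le hy0 hy1 (by norm_num) hk4)
                (Real.rpow_nonneg hP0.le _)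
      linarith
    have hle : ∫ x, -G x ≤ (∫ x, F x) / 2 + (4 * ρ) ^ n * c1 + (4 * e) ^ n * c2 := by
      refine (integral_mono hGi.neg ((((hFi.div_const 2).add (integrable_cube b ρ c1))).add
        (integrable_cube (0 : Fin n → ℝ) e c2)) hptw).trans ?_
      simp only [Pi.add_apply]
      rw [integral_add (f := fun x => F x / 2 + (cube b ρ).indicator (fun _ => c1) x)
        ((hFi.div_const 2).add (integrable_cube _ _ _)) (integrable_cube _ _ _),
        integral_add (hFi.div_const 2) (integrable_cube _ _ _), integral_div,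
        volume_cube _ hρ0.le, volume_cube _ he0.le]
    rw [integral_neg] at hle
    have h1 : (4 * ρ) ^ n * c1 = E1 := by
      simp only [c1, E1]
      rw [Real.div_rpow (mul_nonneg hA1 hC) hρ0.le, Real.mul_rpow hA1 hC, Real.rpow_sub hρ0,
        Real.rpow_natCast, mul_pow]
      ring
    have h2 : (4 * e) ^ n * c2
        = (4 : ℝ) ^ ((4 : ℝ) - 1) * 4 ^ n * A2 ^ (4 : ℝ) * (m : ℝ) ^ ((4 : ℝ) - n) := by
      simp only [c2, he]
      rw [div_div_eq_mul_div, div_one, Real.mul_rpow hA2 hm0.le, Real.rpow_sub hm0 (4 : ℝ),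
        Real.rpow_natCast, mul_pow, div_pow, one_pow]
      ring
    -- compare `g` with `φ P`
    have hpt : ∀ x, g x ≤ F x + (cube (0 : Fin n → ℝ) e).indicator (fun _ => G0) x := by
      intro x
      have hi : 0 ≤ (cube (0 : Fin n → ℝ) e).indicator (fun _ => G0) x :=
        indicator_nonneg (fun _ _ => hG00) x
      have hGx : g x ≤ G0 := (le_abs_self _).trans (hG0 x)
      by_cases hm' : x ∈ cube (0 : Fin n → ℝ) e
      · rw [indicator_of_mem hm']
        linarith [hF0 x]
      rcases le_or_gt 1 (sqr (x - b)) with hb' | hb'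
      · rw [hgs x hb']; linarith [hF0 x]
      have h3 := sqr_gt_of_notMem_cube he0.le hm'
      rw [sub_zero] at h3
      have hx0 : x ≠ 0 := fun h => by
        rw [h, sqr_zero] at h3
        have := sq_nonneg e
        linarith
      have hρ2 : sqr (x - b) < ρ ^ 2 := by
        have := pow_le_pow_left₀ zero_le_one hρ 2
        linarith
      have h4 : φ x = 1 := by
        simp [hφeq, χ, η, ((hC0 _ he0 x).2.2.2 h3).1, (hC0 _ hρ0 (x - b)).2.2.1 hρ2]
      have : g x ≤ F x := by simpa [F, h4] using hgP x hx0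
      linarith
    have hgle : ∫ x, g x ≤ (∫ x, F x) + (4 * e) ^ n * G0 := by
      refine (integral_mono hgi (hFi.add (integrable_cube _ _ _)) hpt).trans ?_
      simp only [Pi.add_apply]
      rw [integral_add hFi (integrable_cube _ _ _), volume_cube _ he0.le]
    have h5 : (4 * e) ^ n * G0 = G0 * 4 ^ n * (m : ℝ) ^ (-(n : ℝ)) := by
      rw [he, Real.rpow_neg hm0.le, Real.rpow_natCast, mul_pow, div_pow, one_pow]
      ring
    simp only [E2]
    linarith
  have hlim : Tendsto (fun m => 2 * E1 + E2 m) atTop (𝓝 (2 * E1)) := by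
    simpa using (tendsto_const_nhds (x := 2 * E1)).add hE2
  have := ge_of_tendsto hlim (by filter_upwards [eventually_ge_atTop 2] with m hm using key m hm)
  refine this.trans (le_of_eq ?_)
  simp only [E1]
  ring

end

end Vale.Agent.P100.Local
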