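import Mathlib
import Vale.Agent.P100.Subcritical
import Vale.Agent.P100.Local.Lower

/-!
# P100: doubling

Rescaling about the origin keeps a solution a solution. Maximising `M(x) (R - |x|)`,
`M = u ^ (1/α) + v ^ (1/β)`, gives a rescaled solution that is bounded on an arbitrarily large ball and
is not small at its centre.
-/

namespace Vale.Agent.P100.Local

open MeasureTheory Set Filter Topology Finset Function
open Vale.Agent.P098.Cone
open scoped ContDiff

noncomputable section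

variable {n : ℕ} {p q : ℝ} {u v : (Fin n → ℝ) → ℝ}

theorem pd_smul_arg {f : (Fin n → ℝ) → ℝ} (c : ℝ) {x : Fin n → ℝ}
    (hf : DifferentiableAt ℝ f (c • x)) (i : Fin n) :
    pd (fun y => f (c • y)) i x = c * pd f i (c • x) := by
  have h : HasFDerivAt (fun y => f (c • y))
      ((fderiv ℝ f (c • x)).comp (c • ContinuousLinearMap.id ℝ (Fin n → ℝ))) x :=
    hf.hasFDerivAt.comp x ((hasFDerivAt_id x).const_smul c)
  rw [pd, h.fderiv]
  simp [pd]

theorem lap_smul_arg {f : (Fin n → ℝ) → ℝ} {c m : ℝ} (hc : c ≠ 0)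
    (hf : ContDiffOn ℝ 2 f {y | y ≠ 0}) {x : Fin n → ℝ} (hx : x ≠ 0) :
    lap (fun y => m * f (c • y)) x = m * c ^ 2 * lap f (c • x) := by
  have hO : IsOpen {y : Fin n → ℝ | y ≠ 0} := isOpen_ne
  have df : ∀ y : Fin n → ℝ, y ≠ 0 → DifferentiableAt ℝ f (c • y) := fun y hy =>
    (hf.differentiableOn (by norm_num)).differentiableAt (hO.mem_nhds (smul_ne_zero hc hy))
  simp only [lap, mul_sum]
  refine sum_congr rfl fun i _ => ?_
  have dd : DifferentiableAt ℝ (pd f i) (c • x) :=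
    ((contDiffOn_pd_two hf hO i).differentiableOn one_ne_zero).differentiableAt
      (hO.mem_nhds (smul_ne_zero hc hx))
  have hev : pd (fun y => m * f (c • y)) i =ᶠ[𝓝 x] fun y => m * c * pd f i (c • y) := by
    filter_upwards [hO.mem_nhds hx] with y hy
    rw [pd_mul (g := fun y => f (c • y)) (differentiableAt_const m)
        ((df y hy).comp y (differentiableAt_id.const_smul c)), pd_const, pd_smul_arg c (df y hy)]
    ring
  rw [pd_congr hev, pd_mul (g := fun y => pd f i (c • y)) (differentiableAt_const (m * c))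
      (dd.comp x (differentiableAt_id.const_smul c)), pd_const, pd_smul_arg c dd]
  ring

/-- The rescaled pair. -/
def rescale (a l : ℝ) (f : (Fin n → ℝ) → ℝ) (y : Fin n → ℝ) : ℝ := l ^ (-a) * f (l⁻¹ • y)

theorem sol_rescale (h : Sol p q u v) (hq : 0 < q) (hqp : q ≤ p) (hpq : 1 < p * q) {l : ℝ}
    (hl : 0 < l) : Sol p q (rescale (wt p q 0) l u) (rescale (wt p q 1) l v) := by
  have hc : l⁻¹ ≠ 0 := (inv_pos.2 hl).ne'
  have hsm : ∀ {f : (Fin n → ℝ) → ℝ} (a : ℝ), ContDiffOn ℝ 2 f {y | y ≠ 0} →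
      ContDiffOn ℝ 2 (rescale a l f) {y | y ≠ 0} := fun {f} a hf =>
    contDiffOn_const.mul (hf.comp (contDiff_id.const_smul l⁻¹).contDiffOn fun y hy => smul_ne_zero hc hy)
  have hpos : ∀ {f : (Fin n → ℝ) → ℝ} (a : ℝ), (∀ y, 0 < f y) → ∀ y, 0 < rescale a l f y :=
    fun a hf y => mul_pos (Real.rpow_pos_of_pos hl _) (hf _)
  have hcont : ∀ {f : (Fin n → ℝ) → ℝ} (a : ℝ), Continuous f → Continuous (rescale a l f) :=
    fun a hf => continuous_const.mul (hf.comp (continuous_id.const_smul l⁻¹))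
  refine ⟨hcont _ h.cont_u, hcont _ h.cont_v, hsm _ h.smooth_u, hsm _ h.smooth_v, hpos _ h.pos_u,
    hpos _ h.pos_v, fun x hx => ?_, fun x hx => ?_⟩
  · show lap (fun y => l ^ (-wt p q 0) * u (l⁻¹ • y)) x = -(rescale (wt p q 1) l v x ^ p)
    rw [lap_smul_arg hc h.smooth_u hx, h.eq_u _ (smul_ne_zero hc hx), rescale,
      Real.mul_rpow (Real.rpow_nonneg hl.le _) (h.pos_v _).le, ← Real.rpow_mul hl.le]
    have e := wt_one_mul hq hqp hpq
    simp only [critDim] at e
    rw [show -wt p q 1 * p = -wt p q 0 + (-2 : ℤ) by push_cast; linarith, Real.rpow_add hl,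
      Real.rpow_intCast, zpow_neg, zpow_ofNat, inv_pow]
    ring
  · show lap (fun y => l ^ (-wt p q 1) * v (l⁻¹ • y)) x = -(rescale (wt p q 0) l u x ^ q)
    rw [lap_smul_arg hc h.smooth_v hx, h.eq_v _ (smul_ne_zero hc hx), rescale,
      Real.mul_rpow (Real.rpow_nonneg hl.le _) (h.pos_u _).le, ← Real.rpow_mul hl.le]
    have e := wt_zero_mul hq hqp hpq
    simp only [critDim] at e
    rw [show -wt p q 0 * q = -wt p q 1 + (-2 : ℤ) by push_cast; linarith, Real.rpow_add hl,
      Real.rpow_intCast, zpow_neg, zpow_ofNat, inv_pow]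
    ring

/-- A rescaled solution bounded on a large ball, not small at its centre. -/
theorem exists_doubled (h : Sol p q u v) (hn : 3 ≤ n) (hq : 0 < q) (hqp : q ≤ p) (hpq : 1 < p * q)
    (L : ℝ) :
    ∃ (u' v' : (Fin n → ℝ) → ℝ) (b : Fin n → ℝ), Sol p q u' v' ∧
      (1 + ell p q ^ (wt p q 1)⁻¹) ^ (-wt p q 0) ≤ u' b ∧
      (∀ x, sqr (x - b) ≤ L ^ 2 → u' x ≤ 2 ^ wt p q 0 ∧ v' x ≤ 2 ^ wt p q 1) := by
  have hp : 0 < p := hq.trans_le hqp
  obtain ⟨hα, hβ⟩ := wt_pos hq hqp hpq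
  set α := wt p q 0 with hαdef
  set β := wt p q 1 with hβdef
  set M : (Fin n → ℝ) → ℝ := fun x => u x ^ α⁻¹ + v x ^ β⁻¹
  have hMc : Continuous M := (h.cont_u.rpow_const fun _ => Or.inr (inv_pos.2 hα).le).add
    (h.cont_v.rpow_const fun _ => Or.inr (inv_pos.2 hβ).le)
  have hMpos : ∀ x, 0 < M x := fun x =>
    add_pos (Real.rpow_pos_of_pos (h.pos_u x) _) (Real.rpow_pos_of_pos (h.pos_v x) _)
  set L' := |L|
  have hL' : 0 ≤ L' := abs_nonneg L
  set R := (2 * L' + 1) / M 0
  have hR : 0 < R := div_pos (by linarith) (hMpos 0)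
  have hS : IsCompact {x : Fin n → ℝ | sqr x ≤ R ^ 2} :=
    (isCompact_Icc (a := fun _ : Fin n => -R) (b := fun _ => R)).of_isClosed_subset
      (isClosed_le continuous_sqr continuous_const) fun x hx => by
        have := mem_box (x := x) (a := 0) (R := R) hR.le (by rw [sub_zero]; exact hx)
        simpa using this
  obtain ⟨b, hb, hmax⟩ := hS.exists_isMaxOn ⟨0, show sqr (0 : Fin n → ℝ) ≤ R ^ 2 by
      rw [sqr_zero]; positivity⟩
    (f := fun x => M x * (R - √(sqr x)))
    (hMc.mul (continuous_const.sub (Real.continuous_sqrt.comp continuous_sqr))).continuousOn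
  set d := R - √(sqr b)
  have h0 : 2 * L' + 1 ≤ M b * d := by
    have := hmax (show (0 : Fin n → ℝ) ∈ {x : Fin n → ℝ | sqr x ≤ R ^ 2} by
      show sqr (0 : Fin n → ℝ) ≤ R ^ 2
      rw [sqr_zero]; positivity)
    simp only [mem_setOf_eq, sqr_zero, Real.sqrt_zero, sub_zero] at this
    refine le_trans (le_of_eq ?_) this
    simp only [R]
    rw [mul_div_cancel₀ _ (hMpos 0).ne']
  have hMb := hMpos b
  have hd : 0 < d := (pos_iff_pos_of_mul_pos (show 0 < M b * d by linarith)).1 hMb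
  set l := M b
  refine ⟨rescale α l u, rescale β l v, l • b, sol_rescale h hq hqp hpq hMb, ?_, fun x hx => ?_⟩
  · have hcmp : v b ≤ ell p q * u b ^ sig p q := h.compare hn hq hqp b
    have hσ : wt p q 1 = α * sig p q := wt_one hp
    have h1 : v b ^ β⁻¹ ≤ ell p q ^ β⁻¹ * u b ^ α⁻¹ := by
      refine (Real.rpow_le_rpow (h.pos_v b).le hcmp (inv_pos.2 hβ).le).trans_eq ?_
      rw [Real.mul_rpow (ell_pos hp hq).le (Real.rpow_nonneg (h.pos_u b).le _),
        ← Real.rpow_mul (h.pos_u b).le]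
      congr 2
      show sig p q * β⁻¹ = α⁻¹
      rw [hβdef, hσ]
      have := hα.ne'
      have := (sig_pos hp hq).ne'
      field_simp
    show _ ≤ l ^ (-α) * u (l⁻¹ • l • b)
    rw [smul_smul, inv_mul_cancel₀ hMb.ne', one_smul]
    have hl : l ≤ (1 + ell p q ^ β⁻¹) * u b ^ α⁻¹ := by
      show u b ^ α⁻¹ + v b ^ β⁻¹ ≤ _
      linarith
    have hk : 0 < 1 + ell p q ^ β⁻¹ := by
      have := ell_pos hp hq
      positivity
    refine le_trans ?_ (mul_le_mul_of_nonneg_right
      (Real.rpow_le_rpow_of_nonpos hMb hl (neg_nonpos.2 hα.le)) (h.pos_u b).le)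
    rw [Real.mul_rpow hk.le (Real.rpow_nonneg (h.pos_u b).le _), ← Real.rpow_mul (h.pos_u b).le,
      show α⁻¹ * -α = -1 by field_simp, Real.rpow_neg_one, mul_assoc,
      inv_mul_cancel₀ (h.pos_u b).ne', mul_one]
  · set y := l⁻¹ • x
    have hyb : sqr (y - b) ≤ (d / 2) ^ 2 := by
      rw [show y - b = l⁻¹ • (x - l • b) by
        rw [smul_sub, smul_smul, inv_mul_cancel₀ hMb.ne', one_smul], sqr_smul]
      have h2 : sqr (x - l • b) ≤ (l * d / 2) ^ 2 := by
        refine hx.trans ?_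
        have hLL : |L| ≤ l * d / 2 := by
          show L' ≤ l * d / 2
          linarith
        rw [← sq_abs L]
        exact pow_le_pow_left₀ (abs_nonneg L) hLL 2
      calc l⁻¹ ^ 2 * sqr (x - l • b) ≤ l⁻¹ ^ 2 * (l * d / 2) ^ 2 :=
            mul_le_mul_of_nonneg_left h2 (sq_nonneg _)
        _ = _ := by field_simp
    have hsy : √(sqr y) ≤ √(sqr b) + d / 2 := by
      rw [Real.sqrt_le_left (by positivity)]
      have hcs := Real.sum_mul_le_sqrt_mul_sqrt univ (fun i => b i) (fun i => y i - b i)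
      have e : sqr y = sqr b + 2 * (∑ i, b i * (y i - b i)) + sqr (y - b) := by
        simp only [sqr, Pi.sub_apply, mul_sum, ← sum_add_distrib]
        exact sum_congr rfl fun i _ => by ring
      have h3 : √(∑ i, (y i - b i) ^ 2) ≤ d / 2 := by
        rw [Real.sqrt_le_left (by positivity)]
        exact hyb
      have h4 : √(∑ i, b i ^ 2) * √(∑ i, (y i - b i) ^ 2) ≤ √(sqr b) * (d / 2) :=
        mul_le_mul_of_nonneg_left h3 (Real.sqrt_nonneg _)
      have h5 := Real.sq_sqrt (sqr_nonneg b)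
      rw [e]
      nlinarith
    have hyR : sqr y ≤ R ^ 2 := by
      have h1 : √(sqr y) ≤ R := hsy.trans (by simp only [d] at hd ⊢; linarith)
      exact (Real.sqrt_le_left hR.le).1 h1
    have hM2 : M y ≤ 2 * l := by
      have h1 := hmax hyR
      have h2 : d / 2 ≤ R - √(sqr y) := by simp only [d] at hsy ⊢; linarith
      have h3 := mul_le_mul_of_nonneg_left h2 (hMpos y).le
      have h4 : M y * (d / 2) ≤ l * d := h3.trans h1
      refine le_of_mul_le_mul_right ?_ (show 0 < d / 2 by linarith)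
      linarith
    have key : ∀ (f : (Fin n → ℝ) → ℝ) (a : ℝ), 0 < a → 0 < f y → f y ^ a⁻¹ ≤ 2 * l →
        l ^ (-a) * f y ≤ 2 ^ a := fun f a ha hf hle => by
      have h1 := Real.rpow_le_rpow (Real.rpow_nonneg hf.le _) hle ha.le
      rw [← Real.rpow_mul hf.le, inv_mul_cancel₀ ha.ne', Real.rpow_one,
        Real.mul_rpow two_pos.le hMb.le] at h1
      refine (mul_le_mul_of_nonneg_left h1 (Real.rpow_nonneg hMb.le _)).trans_eq ?_
      rw [Real.rpow_neg hMb.le]
      have := (Real.rpow_pos_of_pos hMb a).ne'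
      field_simp
    have hu0 := Real.rpow_pos_of_pos (h.pos_u y) α⁻¹
    have hv0 := Real.rpow_pos_of_pos (h.pos_v y) β⁻¹
    have hM2' : u y ^ α⁻¹ + v y ^ β⁻¹ ≤ 2 * l := hM2
    exact ⟨key u α hα (h.pos_u y) (by linarith), key v β hβ (h.pos_v y) (by linarith)⟩

end

end Vale.Agent.P100.Local
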